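import Vale.Agent.P284.H395.K.K8bA

/-!
# P284 (helper395), theorem K, K8b: finite mass, and `K8bStmt`
-/

open scoped Manifold ContDiff ComplexOrder ComplexConjugate Topology ENNReal
open MeasureTheory Set Filter Matrix

noncomputable section

namespace Vale.Agent.P284.H395.K

open Vale.Agent.P272.K Vale.Agent.P284.H608.K

variable {n : ℕ} {X : Type} [TopologicalSpace X] [ChartedSpace (Cm n) X]

/-- `ρ + i∂∂̄ψ + C w` -/
def rho2 (w ρ : Chart n X → Cm n → Matrix (Fin n) (Fin n) ℂ) (C : ℝ) (u : X → ℝ) (e : Chart n X)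
    (z : Cm n) : Matrix (Fin n) (Fin n) ℂ :=
  ρ e z + (cHess (fun y => psi u (e.symm y)) z + (C : ℂ) • w e z)

section
variable {w ρ : Chart n X → Cm n → Matrix (Fin n) (Fin n) ℂ} {Z : Set X} {s : ℕ} {C : ℝ} {u : X → ℝ}

omit [ChartedSpace (Cm n) X] in
lemma w_add_rho2 (e : Chart n X) (z : Cm n) : w e z + rho2 w ρ C u e z = ρ e z + hc w C u e z := by
  unfold rho2 hc
  push_cast
  rw [add_smul, one_smul]
  abel

variable (hu : IsPot Z w ρ C u) (h1 : ∀ x ∉ Z, u x ≤ -1)
include hu h1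

lemma rho2_isRho [IsManifold 𝓘(ℂ, Cm n) ω X] (hw : IsKahler w) (hρ : IsRho Z s ρ) (h0 : 0 ≤ C) :
    IsRho Z n (rho2 w ρ C u) where
  smooth e x h hx i j := (hρ.smooth e x h hx i j).add
    ((INT.smooth_cHess (psi_smooth hu h1 e x h hx) i j).add
      (contDiffAt_const.mul (hw.smooth e x h i j)))
  change e e' x h h' hx := by
    unfold rho2
    rw [hρ.change e e' x h h' hx, hw.change e e' x h h',
      hess_change_of hu h1 h h' (psi_smooth hu h1 e' x h' hx)]
    simp only [Matrix.mul_add, Matrix.add_mul, Matrix.mul_smul, Matrix.smul_mul]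
  closed e x h hx i j k := by
    have f1 := (hw.smooth e x h i j).differentiableAt (by simp)
    have f2 := (hw.smooth e x h k j).differentiableAt (by simp)
    have g1 := (INT.smooth_cHess (psi_smooth hu h1 e x h hx) i j).differentiableAt (by simp)
    have g2 := (INT.smooth_cHess (psi_smooth hu h1 e x h hx) k j).differentiableAt (by simp)
    have r1 := (hρ.smooth e x h hx i j).differentiableAt (by simp)
    have r2 := (hρ.smooth e x h hx k j).differentiableAt (by simp)
    have s1 : DifferentiableAt ℝ (fun z => cHess (fun y => psi u (e.symm y)) z i j +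
      (C : ℂ) * w e z i j) (e x) := g1.add (f1.const_mul _)
    have s2 : DifferentiableAt ℝ (fun z => cHess (fun y => psi u (e.symm y)) z k j +
      (C : ℂ) * w e z k j) (e x) := g2.add (f2.const_mul _)
    change dz k (fun z => ρ e z i j + (cHess (fun y => psi u (e.symm y)) z i j +
        (C : ℂ) * w e z i j)) (e x) =
      dz i (fun z => ρ e z k j + (cHess (fun y => psi u (e.symm y)) z k j +
        (C : ℂ) * w e z k j)) (e x)
    rw [INT.dz_add r1 s1, INT.dz_add r2 s2, INT.dz_add g1 (f1.const_mul _), INT.dz_add g2 (f2.const_mul _), INT.dz_const_mul _ f1,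
      INT.dz_const_mul _ f2, hw.closed e x h i j k, hρ.closed e x h hx i j k,
      INT.cHess_closed (psi_smooth hu h1 e x h hx) k i j]
  psd e x h hx := by
    have h2 := (hρ.psd e x h hx).add (hc_sub_w hu h1 hw hρ h0 e x h hx)
    have h3 : rho2 w ρ C u e (e x) = ρ e (e x) + (hc w C u e (e x) - w e (e x)) := by
      rw [← add_sub_assoc, ← w_add_rho2, add_sub_cancel_left]
    rw [h3]; exact h2
  rank e x h hx := by simpa using Matrix.rank_le_card_width (rho2 w ρ C u e (e x))

lemma pot2 : IsPot Z w (rho2 w ρ C u) (2 * C) fun x => u x + psi u x where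
  smooth e x h hx := (hu.smooth e x h hx).add (psi_smooth hu h1 e x h hx)
  lim x hx := by
    refine tendsto_atBot_mono' _ ?_ (hu.lim x hx)
    filter_upwards [self_mem_nhdsWithin] with y hy
    linarith [psi_nonpos h1 y hy]
  ge e x h hx := by
    have h2 : cHess (fun z => u (e.symm z) + psi u (e.symm z)) (e x) =
        cHess (fun z => u (e.symm z)) (e x) + cHess (fun z => psi u (e.symm z)) (e x) :=
      cHess_add (two_of (hu.smooth e x h hx)) (two_of (psi_smooth hu h1 e x h hx))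
    have h3 : cHess (fun z => u (e.symm z) + psi u (e.symm z)) (e x) +
        ((2 * C : ℝ) : ℂ) • w e (e x) - rho2 w ρ C u e (e x) =
        cHess (fun z => u (e.symm z)) (e x) + (C : ℂ) • w e (e x) - ρ e (e x) := by
      rw [h2]
      unfold rho2
      push_cast
      rw [mul_smul, two_smul]
      abel
    rw [h3]
    exact hu.ge e x h hx

end

section
variable [IsManifold 𝓘(ℂ, Cm n) ω X] [T2Space X] [CompactSpace X]
  {w ρ : Chart n X → Cm n → Matrix (Fin n) (Fin n) ℂ} {Z : Set X} {s : ℕ} {C : ℝ} {u : X → ℝ}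

/-- **finite mass** of `det (w + ρ)` off `Z`, when `w`, `ρ` has a potential -/
theorem mass_lt_top (hw : IsKahler w) (hZ : IsClosed Z) (hρ : IsRho Z s ρ) (hu : IsPot Z w ρ C u)
    (h0 : 0 ≤ C) (e : Chart n X) (x : X) (h : At e x) : ∃ U ∈ 𝓝 (e x),
      ∫⁻ z in U ∩ e.symm ⁻¹' Zᶜ, ENNReal.ofReal ((w e z + ρ e z).det.re) < ⊤ := by
  classical
  obtain ⟨U, hU, hUt, hUc⟩ := local_compact_nhds (e.open_target.mem_nhds (e.map_source h.2))
  refine ⟨U, hU, ?_⟩
  have hK : IsCompact (e.symm '' U) := hUc.image_of_continuousOn (e.continuousOn_symm.mono hUt)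
  have hKs : e.symm '' U ⊆ e.source := by
    rintro _ ⟨z, hz, rfl⟩; exact e.map_target (hUt hz)
  obtain ⟨f, hf1, -, hfs, hf01⟩ :=
    exists_continuousMap_one_of_isCompact_subset_isOpen hK e.open_source hKs
  set D : ℕ → Chart n X → Cm n → ℝ := fun J e z => (WJ w C Z u J e z).det.re with hD
  have hDd : ∀ J, INT.IsDensity (D J) := fun J => (WJ_closed hw hZ hu J).isDensity
  have hDn : ∀ J : ℕ, ∀ (e : Chart n X) x, At e x → 0 ≤ D J e (e x) := fun J e x h =>
    (Complex.le_def.1 (WJ_posDef hw hZ hρ hu h0 le_rfl J h).posSemidef.det_nonneg).1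
  set c : ℝ := INT.intX (fun (e : Chart n X) z => ((((C + 1 : ℝ) : ℂ)) • w e z).det.re) with hc
  have hbd : ∀ J : ℕ, ∫⁻ z in e.target, ENNReal.ofReal (f (e.symm z) * D J e z) ≤
      ENNReal.ofReal c := by
    intro J
    have hi := INT.integrableOn_dens (hDd J) h.1 f.continuous hfs
    have hnn : ∀ z ∈ e.target, 0 ≤ f (e.symm z) * D J e z := by
      intro z hz
      have h2 := hDn J e (e.symm z) ⟨h.1, e.map_target hz⟩
      rw [e.right_inv hz] at h2
      exact mul_nonneg (hf01 _).1 h2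
    rw [← ofReal_integral_eq_lintegral_ofReal hi (by
      filter_upwards [self_mem_ae_restrict e.open_target.measurableSet] with z hz using hnn z hz)]
    refine ENNReal.ofReal_le_ofReal ?_
    have h2 := INT.intX_of_support ((hDd J).smul f.continuous) h.1 (isClosed_tsupport f) hfs
      (fun e' x' h' hx' => by
        show f (e'.symm (e' x')) * _ = 0
        rw [e'.left_inv h'.2, image_eq_zero_of_notMem_tsupport hx', zero_mul])
    rw [← h2, hc, ← vol_WJ hw hZ hu J]
    refine INT.intX_mono ((hDd J).smul f.continuous) (hDd J) fun e' x' h' => ?_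
    exact mul_le_of_le_one_left (hDn J e' x' h') (hf01 _).2
  have hO : IsOpen (e.target ∩ e.symm ⁻¹' Zᶜ) := e.isOpen_inter_preimage_symm hZ.isOpen_compl
  have hcont : ContinuousOn (fun z => u (e.symm z)) (e.target ∩ e.symm ⁻¹' Zᶜ) := by
    intro z hz
    have h2 := hu.smooth e (e.symm z) ⟨h.1, e.map_target hz.1⟩ hz.2
    rw [e.right_inv hz.1] at h2
    exact h2.continuousAt.continuousWithinAt
  set S : ℕ → Set (Cm n) := fun J => U ∩ ((e.target ∩ e.symm ⁻¹' Zᶜ) \
    ((e.target ∩ e.symm ⁻¹' Zᶜ) ∩ (fun z => u (e.symm z)) ⁻¹' Iio (1 - (J : ℝ)))) with hS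
  have hSm : ∀ J, MeasurableSet (S J) := fun J =>
    hUc.measurableSet.inter (hO.measurableSet.diff
      (hcont.isOpen_inter_preimage hO isOpen_Iio).measurableSet)
  have hSmem : ∀ J z, z ∈ S J ↔ z ∈ U ∧ e.symm z ∉ Z ∧ 1 ≤ u (e.symm z) + J := by
    intro J z
    constructor
    · rintro ⟨hz, hz2, hz3⟩
      refine ⟨hz, hz2.2, ?_⟩
      by_contra hcon
      exact hz3 ⟨hz2, by simp only [mem_preimage, mem_Iio]; linarith⟩
    · rintro ⟨hz, hz2, hz3⟩
      refine ⟨hz, ⟨hUt hz, hz2⟩, fun h4 => ?_⟩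
      have := h4.2
      simp only [mem_preimage, mem_Iio] at this
      linarith
  have hSU : U ∩ e.symm ⁻¹' Zᶜ = ⋃ J, S J := by
    ext z
    rw [mem_iUnion]
    constructor
    · rintro ⟨hz, hz2⟩
      obtain ⟨J, hJ⟩ := exists_nat_ge (1 - u (e.symm z))
      exact ⟨J, (hSmem J z).2 ⟨hz, hz2, by linarith⟩⟩
    · rintro ⟨J, hJ⟩
      have := (hSmem J z).1 hJ
      exact ⟨this.1, this.2.1⟩
  have hdir : Directed (· ⊆ ·) S := by
    refine Monotone.directed_le (f := S) fun J J' hJ z hz => ?_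
    have h2 := (hSmem J z).1 hz
    have h3 : (J : ℝ) ≤ J' := by exact_mod_cast hJ
    exact (hSmem J' z).2 ⟨h2.1, h2.2.1, by linarith⟩
  rw [hSU, setLIntegral_iUnion_of_directed _ hdir]
  refine (iSup_le fun J => ?_).trans_lt (ENNReal.ofReal_lt_top (r := c))
  refine le_trans ?_ (hbd J)
  have hSt : S J ⊆ e.target := fun z hz => hUt ((hSmem J z).1 hz).1
  refine le_trans (setLIntegral_mono' (hSm J) fun z hz => ?_) (lintegral_mono_set hSt)
  have h2 := (hSmem J z).1 hz
  have hAt : At e (e.symm z) := ⟨h.1, e.map_target (hUt h2.1)⟩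
  refine ENNReal.ofReal_le_ofReal ?_
  have h3 : f (e.symm z) = 1 := hf1 ⟨z, h2.1, rfl⟩
  rw [h3, one_mul]
  have h4 := (WJ_ge hw hZ hρ hu h0 le_rfl J hAt).2 h2.2.1 h2.2.2
  have h5 := (hw.posDef e _ hAt).add_posSemidef (hρ.psd e _ hAt h2.2.1)
  have h6 := (Complex.le_def.1 (Vale.Agent.P272.Sz.det_le_det h5 h4)).1
  rw [e.right_inv (hUt h2.1)] at h6
  exact h6

end

/-- **K8b** -/
theorem k8b : K8bStmt := by
  intro n X _ _ _ _ _ w hw Z hZ s ρ hρ C u hu
  obtain ⟨M, -, hM⟩ := exists_sup hZ hu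
  set C₁ : ℝ := max C 0 with hC₁
  set u₁ : X → ℝ := fun x => u x + (-M - 1) with hu₁
  have hu1 : IsPot Z w ρ C₁ u₁ := pot_shift hw hu (le_max_left _ _) _
  have h1 : ∀ x ∉ Z, u₁ x ≤ -1 := fun x hx => by
    show u x + (-M - 1) ≤ -1
    linarith [hM x hx]
  have h0 : 0 ≤ C₁ := le_max_right _ _
  refine ⟨hc w C₁ u₁, hc_kOff hu1 h1 hw hρ h0, hc_cut hu1 h1 hw hZ hρ h0,
    fun e x h hx => hc_sub_w hu1 h1 hw hρ h0 e x h hx, fun e x h => ?_⟩
  have h2 := mass_lt_top hw hZ (rho2_isRho hu1 h1 hw hρ h0) (pot2 hu1 h1) (by linarith) e x h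
  simp only [w_add_rho2] at h2
  exact h2

end Vale.Agent.P284.H395.K
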