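import Vale.Agent.P284.H608.K.App
import Vale.Agent.P284.H395.StkA
import Vale.Agent.P272.Sz.Det

/-!
# P284 (helper395), theorem K, K8b: the complete Kähler metric `w_c = (C + 1) w + i∂∂̄(-log(-u))`

`ψ = -log(-u)`.
-/

open scoped Manifold ContDiff ComplexOrder ComplexConjugate Topology ENNReal
open MeasureTheory Set Filter Matrix

noncomputable section

namespace Vale.Agent.P284.H395.K

open Vale.Agent.P272.K Vale.Agent.P284.H608.K

variable {n : ℕ} {X : Type} [TopologicalSpace X] [ChartedSpace (Cm n) X]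

lemma two_of {f : Cm n → ℝ} {z : Cm n} (h : ContDiffAt ℝ ∞ f z) : ContDiffAt ℝ 2 f z :=
  h.of_le (by norm_cast)

/-- `ψ = -log(-u)` (the real logarithm is even) -/
def psi (u : X → ℝ) (x : X) : ℝ := -Real.log (u x)

/-- the complete metric -/
def hc (w : Chart n X → Cm n → Matrix (Fin n) (Fin n) ℂ) (C : ℝ) (u : X → ℝ) (e : Chart n X)
    (z : Cm n) : Matrix (Fin n) (Fin n) ℂ :=
  ((C + 1 : ℝ) : ℂ) • w e z + cHess (fun y => psi u (e.symm y)) z

section
variable {w ρ : Chart n X → Cm n → Matrix (Fin n) (Fin n) ℂ} {Z : Set X} {s : ℕ} {C : ℝ} {u : X → ℝ}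

/-- normalization of the potential -/
lemma pot_shift (hw : IsKahler w) (hu : IsPot Z w ρ C u) {C₁ : ℝ} (hC : C ≤ C₁) (c : ℝ) :
    IsPot Z w ρ C₁ fun x => u x + c where
  smooth e x h hx := (hu.smooth e x h hx).add contDiffAt_const
  lim x hx := tendsto_atBot_add_const_right _ c (hu.lim x hx)
  ge e x h hx := by
    have h1 : cHess (fun z => u (e.symm z) + c) (e x) = cHess (fun z => u (e.symm z)) (e x) := by
      rw [cHess_add (two_of (hu.smooth e x h hx)) contDiffAt_const, cHess_const, add_zero]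
    rw [h1]
    have h2 := (hu.ge e x h hx).add (smul_psd (hw.posDef e x h).posSemidef (sub_nonneg.2 hC))
    have h3 : cHess (fun z => u (e.symm z)) (e x) + (C₁ : ℂ) • w e (e x) - ρ e (e x) =
        cHess (fun z => u (e.symm z)) (e x) + (C : ℂ) • w e (e x) - ρ e (e x) +
          ((C₁ - C : ℝ) : ℂ) • w e (e x) := by
      push_cast; rw [sub_smul]; abel
    rw [h3]; exact h2

variable (hu : IsPot Z w ρ C u) (h1 : ∀ x ∉ Z, u x ≤ -1)
include hu h1

lemma psi_smooth (e : Chart n X) (x : X) (h : At e x) (hx : x ∉ Z) :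
    ContDiffAt ℝ ∞ (fun z => psi u (e.symm z)) (e x) := by
  have h0 : u (e.symm (e x)) ≠ 0 := by
    rw [e.left_inv h.2]; have := h1 x hx; intro h2; linarith
  exact ((hu.smooth e x h hx).log h0).neg

lemma psi_hess (e : Chart n X) (x : X) (h : At e x) (hx : x ∉ Z) :
    cHess (fun z => psi u (e.symm z)) (e x) =
      ((-(u x)⁻¹ : ℝ) : ℂ) • cHess (fun z => u (e.symm z)) (e x) +
      (((u x)⁻¹ ^ 2 : ℝ) : ℂ) • AMP.gm (fun z => u (e.symm z)) (fun z => u (e.symm z)) (e x) := by
  have hux := h1 x hx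
  have h0 : u (e.symm (e x)) ≠ 0 := by
    rw [e.left_inv h.2]; intro h2; linarith
  have hφ : ContDiffAt ℝ 2 (fun t : ℝ => -Real.log t) (u (e.symm (e x))) :=
    (Real.contDiffAt_log.2 h0).neg
  have h2 := AMP.cHess_comp_real (φ := fun t => -Real.log t) (f := fun y => u (e.symm y))
    (z := e x) hφ (two_of (hu.smooth e x h hx))
  have hd1 : deriv (fun t : ℝ => -Real.log t) = fun t => -t⁻¹ := by
    funext t
    rw [deriv.fun_neg, Real.deriv_log']
  have hd2 : deriv (fun t : ℝ => -t⁻¹) = fun t => t⁻¹ ^ 2 := by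
    funext t
    rw [deriv.fun_neg, deriv_inv, neg_neg, inv_pow]
  rw [hd1, hd2, e.left_inv h.2] at h2
  exact h2

lemma psi_dz (e : Chart n X) (x : X) (h : At e x) (hx : x ∉ Z) (j : Fin n) :
    dz j (fun z => (psi u (e.symm z) : ℂ)) (e x) =
      ((-(u x)⁻¹ : ℝ) : ℂ) * dz j (fun z => (u (e.symm z) : ℂ)) (e x) := by
  have hux := h1 x hx
  have h0 : u (e.symm (e x)) ≠ 0 := by
    rw [e.left_inv h.2]; intro h2; linarith
  have h2 := AMP.dz_real_comp (φ := fun t => -Real.log t) (f := fun y => u (e.symm y))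
    (z := e x) (i := j) (Real.differentiableAt_log h0).neg
    ((hu.smooth e x h hx).differentiableAt (by simp))
  have hd1 : deriv (fun t : ℝ => -Real.log t) = fun t => -t⁻¹ := by
    funext t
    rw [deriv.fun_neg, Real.deriv_log']
  rw [hd1, e.left_inv h.2] at h2
  exact h2

lemma psi_gm (e : Chart n X) (x : X) (h : At e x) (hx : x ∉ Z) :
    AMP.gm (fun z => psi u (e.symm z)) (fun z => psi u (e.symm z)) (e x) =
      (((u x)⁻¹ ^ 2 : ℝ) : ℂ) • AMP.gm (fun z => u (e.symm z)) (fun z => u (e.symm z)) (e x) := by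
  ext i j
  simp only [AMP.gm, Matrix.of_apply, Matrix.smul_apply, smul_eq_mul, AMP.dzb_real_eq]
  rw [psi_dz hu h1 e x h hx, psi_dz hu h1 e x h hx, map_mul, Complex.conj_ofReal]
  push_cast; ring

/-- `w_c ≥ w + i∂ψ ∧ ∂̄ψ` -/
lemma hc_ge (hw : IsKahler w) (hρ : IsRho Z s ρ) (h0 : 0 ≤ C) (e : Chart n X) (x : X)
    (h : At e x) (hx : x ∉ Z) :
    (hc w C u e (e x) - w e (e x) -
      AMP.gm (fun z => psi u (e.symm z)) (fun z => psi u (e.symm z)) (e x)).PosSemidef := by
  have hux := h1 x hx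
  have hk0 : 0 ≤ -(u x)⁻¹ := by
    rw [← inv_neg]; exact inv_nonneg.2 (by linarith)
  have hk1 : -(u x)⁻¹ ≤ 1 := by
    rw [← inv_neg]; exact inv_le_one_of_one_le₀ (by linarith)
  have e1 : hc w C u e (e x) - w e (e x) -
      AMP.gm (fun z => psi u (e.symm z)) (fun z => psi u (e.symm z)) (e x) =
      ((-(u x)⁻¹ : ℝ) : ℂ) • (cHess (fun y => u (e.symm y)) (e x) + (C : ℂ) • w e (e x) -
        ρ e (e x)) + ((-(u x)⁻¹ : ℝ) : ℂ) • ρ e (e x) +
      (((1 - -(u x)⁻¹) * C : ℝ) : ℂ) • w e (e x) := by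
    unfold hc
    rw [psi_hess hu h1 e x h hx, psi_gm hu h1 e x h hx]
    ext i j
    simp only [Matrix.sub_apply, Matrix.add_apply, Matrix.smul_apply, smul_eq_mul]
    push_cast
    ring
  rw [e1]
  exact ((smul_psd (hu.ge e x h hx) hk0).add (smul_psd (hρ.psd e x h hx) hk0)).add
    (smul_psd (hw.posDef e x h).posSemidef (mul_nonneg (by linarith) h0))

lemma hc_sub_w (hw : IsKahler w) (hρ : IsRho Z s ρ) (h0 : 0 ≤ C) (e : Chart n X) (x : X)
    (h : At e x) (hx : x ∉ Z) : (hc w C u e (e x) - w e (e x)).PosSemidef := by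
  have := (hc_ge hu h1 hw hρ h0 e x h hx).add (AMP.gm_self_posSemidef
    (fun z => psi u (e.symm z)) (e x))
  rwa [sub_add_cancel] at this

lemma psi_cont (x : X) (hx : x ∉ Z) : ContinuousAt (psi u) x := by
  have h : At (chartAt (Cm n) x) x := ⟨chart_mem_atlas _ x, mem_chart_source _ x⟩
  exact u_cont h (psi_smooth hu h1 _ x h hx)

omit hu in
lemma psi_nonpos (x : X) (hx : x ∉ Z) : psi u x ≤ 0 := by
  unfold psi
  have h2 := h1 x hx
  have h3 : Real.log (u x) = Real.log (-u x) := (Real.log_neg_eq_log _).symm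
  rw [h3]
  have := Real.log_nonneg (x := -u x) (by linarith)
  linarith

omit h1 in
lemma psi_lim (x : X) (hx : x ∈ Z) : Tendsto (psi u) (𝓝[Zᶜ] x) atBot := by
  have h2 := hu.lim x hx
  have h3 : Tendsto (fun y => -u y) (𝓝[Zᶜ] x) atTop := tendsto_neg_atBot_atTop.comp h2
  have h4 := tendsto_neg_atTop_atBot.comp (Real.tendsto_log_atTop.comp h3)
  refine h4.congr fun y => ?_
  simp only [Function.comp_apply, psi, Real.log_neg_eq_log]

/-- the Hessian of a function which is smooth off `Z` is a form off `Z` -/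
lemma hess_change_of [IsManifold 𝓘(ℂ, Cm n) ω X] {f : X → ℝ} {e e' : Chart n X} {x : X}
    (h : At e x) (h' : At e' x) (hf : ContDiffAt ℝ ∞ (fun z => f (e'.symm z)) (e' x)) :
    cHess (fun y => f (e.symm y)) (e x) = (jacM e e' x).transpose *
      cHess (fun y => f (e'.symm y)) (e' x) * (jacM e e' x).map (starRingEnd ℂ) := by
  have h1 : (fun y => f (e.symm y)) =ᶠ[𝓝 (e x)] fun y => f (e'.symm (e' (e.symm y))) := by
    filter_upwards [h.nhds_at h'] with z hz
    rw [hz.2.2.left_inv]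
  have h2 : e' (e.symm (e x)) = e' x := by rw [h.left_inv]
  rw [cHess_congr h1]
  have := cHess_comp (τ := fun z => e' (e.symm z)) (f := fun y => f (e'.symm y)) (z := e x)
    (by rw [h2]; exact two_of hf) (transition h h')
  rw [h2] at this
  exact this

lemma hc_kOff [IsManifold 𝓘(ℂ, Cm n) ω X] (hw : IsKahler w) (hρ : IsRho Z s ρ) (h0 : 0 ≤ C) :
    KOff Z (hc w C u) where
  smooth e x h hx i j :=
    (contDiffAt_const.mul (hw.smooth e x h i j)).add
      (INT.smooth_cHess (psi_smooth hu h1 e x h hx) i j)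
  posDef e x h hx := by
    have := (hw.posDef e x h).add_posSemidef (hc_sub_w hu h1 hw hρ h0 e x h hx)
    rwa [add_sub_cancel] at this
  change e e' x h h' hx := by
    unfold hc
    rw [hw.change e e' x h h', hess_change_of hu h1 h h' (psi_smooth hu h1 e' x h' hx),
      Matrix.mul_add, Matrix.add_mul, Matrix.mul_smul, Matrix.smul_mul]
  closed e x h hx i j k := by
    have f1 := (hw.smooth e x h i j).differentiableAt (by simp)
    have f2 := (hw.smooth e x h k j).differentiableAt (by simp)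
    have g1 := (INT.smooth_cHess (psi_smooth hu h1 e x h hx) i j).differentiableAt (by simp)
    have g2 := (INT.smooth_cHess (psi_smooth hu h1 e x h hx) k j).differentiableAt (by simp)
    change dz k (fun z => ((C + 1 : ℝ) : ℂ) * w e z i j +
        cHess (fun y => psi u (e.symm y)) z i j) (e x) =
      dz i (fun z => ((C + 1 : ℝ) : ℂ) * w e z k j +
        cHess (fun y => psi u (e.symm y)) z k j) (e x)
    rw [INT.dz_add (f1.const_mul _) g1, INT.dz_add (f2.const_mul _) g2, INT.dz_const_mul _ f1,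
      INT.dz_const_mul _ f2, hw.closed e x h i j k,
      INT.cHess_closed (psi_smooth hu h1 e x h hx) k i j]

/-- the cut-off functions -/
lemma hc_cut (hw : IsKahler w) (hZ : IsClosed Z) (hρ : IsRho Z s ρ) (h0 : 0 ≤ C)
    [CompactSpace X] : Nonempty (CutOff Z (hc w C u)) := by
  obtain ⟨L, hL0, hL⟩ := exists_bd
  have hJ : ∀ ν : ℕ, (0 : ℝ) < (ν : ℝ) + 1 := fun ν => by positivity
  have hz : ∀ ν : ℕ, ∀ x ∈ Z, ∀ᶠ y in 𝓝 x,
      ext0 Z (fun x => chi ((ν : ℝ) + 1) (psi u x)) y = 0 := fun ν =>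
    ext0_zero (A := -2 * ((ν : ℝ) + 1)) (psi_lim hu) fun x hx => chi_zero (hJ ν) hx
  refine ⟨{
    χ := fun ν => ext0 Z fun x => chi ((ν : ℝ) + 1) (psi u x)
    ε := fun ν => (L / ((ν : ℝ) + 1)) ^ 2
    sm := ?_
    supp := ?_
    nonneg := ?_
    mono := ?_
    le_one := ?_
    lim := ?_
    grad := ?_
    tend := ?_ }⟩
  · intro ν e x h hx
    refine ContDiffAt.congr_of_eventuallyEq ?_ (ext0_near hZ h hx)
    exact (chi_contDiff _).contDiffAt.comp (e x) (psi_smooth hu h1 e x h hx)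
  · intro ν
    refine ⟨tsupport (ext0 Z fun x => chi ((ν : ℝ) + 1) (psi u x)),
      (isClosed_tsupport _).isCompact, ?_, fun x hx => image_eq_zero_of_notMem_tsupport hx⟩
    have := tsupport_of (hz ν)
    exact Set.disjoint_iff_inter_eq_empty.1 (Set.disjoint_left.2 fun x hx hxZ => this hx hxZ)
  · intro ν x
    by_cases hx : x ∈ Z
    · rw [ext0_of_mem hx]
    · rw [ext0_of_notMem hx]; exact chi_nonneg _ _
  · intro ν x
    by_cases hx : x ∈ Z
    · rw [ext0_of_mem hx, ext0_of_mem hx]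
    · rw [ext0_of_notMem hx, ext0_of_notMem hx]
      exact chi_mono (hJ ν) (by push_cast; linarith) _
  · intro ν x
    by_cases hx : x ∈ Z
    · rw [ext0_of_mem hx]; exact zero_le_one
    · rw [ext0_of_notMem hx]; exact chi_le_one _ _
  · intro x hx
    obtain ⟨N, hN⟩ := exists_nat_ge (1 - psi u x)
    filter_upwards [eventually_ge_atTop N] with ν hν
    have h2 : ∀ᶠ x' in 𝓝 x, psi u x - 1 < psi u x' :=
      (psi_cont hu h1 x hx).eventually (lt_mem_nhds (by linarith))
    filter_upwards [h2, hZ.isOpen_compl.mem_nhds hx] with x' hx' hx'Z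
    rw [ext0_of_notMem hx'Z]
    refine chi_one (hJ ν) ?_
    have : (N : ℝ) ≤ ν := by exact_mod_cast hν
    linarith
  · intro ν e x h hx
    have hd : ∀ j, dz j (fun z => (ext0 Z (fun x => chi ((ν : ℝ) + 1) (psi u x)) (e.symm z) : ℂ))
        (e x) = ((deriv (chi ((ν : ℝ) + 1)) (psi u x) : ℝ) : ℂ) *
          dz j (fun z => (psi u (e.symm z) : ℂ)) (e x) := by
      intro j
      have h2 : (fun z => (ext0 Z (fun x => chi ((ν : ℝ) + 1) (psi u x)) (e.symm z) : ℂ))
          =ᶠ[𝓝 (e x)] fun z => ((chi ((ν : ℝ) + 1) (psi u (e.symm z)) : ℝ) : ℂ) := by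
        filter_upwards [ext0_near (f := fun x => chi ((ν : ℝ) + 1) (psi u x)) hZ h hx] with z hz
        rw [hz]
      rw [INT.dz_congr h2]
      have h3 := AMP.dz_real_comp (φ := chi ((ν : ℝ) + 1)) (f := fun y => psi u (e.symm y))
        (z := e x) (i := j) ((chi_contDiff _).contDiffAt.differentiableAt (by simp))
        ((psi_smooth hu h1 e x h hx).differentiableAt (by simp))
      rw [e.left_inv h.2] at h3
      exact h3
    set d : ℝ := deriv (chi ((ν : ℝ) + 1)) (psi u x) with hdd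
    have hm : (Matrix.of fun j k =>
        dz j (fun z => (ext0 Z (fun x => chi ((ν : ℝ) + 1) (psi u x)) (e.symm z) : ℂ)) (e x) *
        conj (dz k (fun z => (ext0 Z (fun x => chi ((ν : ℝ) + 1) (psi u x)) (e.symm z) : ℂ))
          (e x))) = ((d ^ 2 : ℝ) : ℂ) •
        AMP.gm (fun z => psi u (e.symm z)) (fun z => psi u (e.symm z)) (e x) := by
      ext j k
      simp only [AMP.gm, Matrix.of_apply, Matrix.smul_apply, smul_eq_mul, AMP.dzb_real_eq]
      rw [hd, hd, map_mul, Complex.conj_ofReal]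
      push_cast; ring
    rw [hm]
    have hd2 : d ^ 2 ≤ (L / ((ν : ℝ) + 1)) ^ 2 := by
      rw [hdd, deriv_chi]
      rw [← sq_abs, abs_div, abs_of_pos (hJ ν)]
      have := hL (psi u x / ((ν : ℝ) + 1) + 2)
      gcongr
    have h3 := hc_ge hu h1 hw hρ h0 e x h hx
    have h4 := (AMP.gm_self_posSemidef (fun z => psi u (e.symm z)) (e x))
    have e1 : (((L / ((ν : ℝ) + 1)) ^ 2 : ℝ) : ℂ) • hc w C u e (e x) - ((d ^ 2 : ℝ) : ℂ) •
        AMP.gm (fun z => psi u (e.symm z)) (fun z => psi u (e.symm z)) (e x) =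
        (((L / ((ν : ℝ) + 1)) ^ 2 : ℝ) : ℂ) • (hc w C u e (e x) - w e (e x) -
          AMP.gm (fun z => psi u (e.symm z)) (fun z => psi u (e.symm z)) (e x)) +
        (((L / ((ν : ℝ) + 1)) ^ 2 : ℝ) : ℂ) • w e (e x) +
        (((L / ((ν : ℝ) + 1)) ^ 2 - d ^ 2 : ℝ) : ℂ) •
          AMP.gm (fun z => psi u (e.symm z)) (fun z => psi u (e.symm z)) (e x) := by
      ext i j
      simp only [Matrix.sub_apply, Matrix.add_apply, Matrix.smul_apply, smul_eq_mul]
      push_cast
      ring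
    rw [e1]
    exact ((smul_psd h3 (by positivity)).add
      (smul_psd (hw.posDef e x h).posSemidef (by positivity))).add
      (smul_psd h4 (sub_nonneg.2 hd2))
  · have h2 : Tendsto (fun ν : ℕ => L / ((ν : ℝ) + 1)) atTop (𝓝 0) :=
      tendsto_const_div_atTop_nhds_zero_nat L |>.comp (tendsto_add_atTop_nat 1) |>.congr
        fun ν => by simp
    simpa using h2.pow 2

end

end Vale.Agent.P284.H395.K
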